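import Vale.Agent.P143.H71.Meas
import Mathlib.MeasureTheory.Constructions.Polish.StronglyMeasurable
import Mathlib.Analysis.CStarAlgebra.ContinuousFunctionalCalculus.Instances
import Mathlib.Analysis.CStarAlgebra.ContinuousLinearMap

/-!
The drift of a determinantal probability measure in infinite volume.
-/

namespace Vale.Agent.P143.H71

open Filter Topology MeasureTheory
open scoped InnerProductSpace ComplexConjugate ENNReal NNReal
open H536

variable {E : Type*}

/-- a determinantal probability measure on `{0,1}^E`: there is a positive contraction `Q` of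
`ℓ²(E)` such that the probability that all elements of a finite set `T` are occupied is
`det (⟨δ_e, Q δ_f⟩)_{e,f ∈ T}` -/
def IsDeterminantal (μ : Measure (E → Bool)) : Prop :=
  IsProbabilityMeasure μ ∧ ∃ Q : L2 E →L[ℂ] L2 E, Q.IsPositive ∧ (1 - Q).IsPositive ∧
    ∀ T : Finset E, ((μ.real {ω | ∀ e ∈ T, ω e = true} : ℝ) : ℂ) =
      (by classical exact (Matrix.of fun e f : T => (Q (delta (f : E)) : E → ℂ) e).det)

theorem exists_sqrt {H : Type*} [NormedAddCommGroup H] [InnerProductSpace ℂ H] [CompleteSpace H]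
    {Q : H →L[ℂ] H} (hQ : Q.IsPositive) : ∃ S : H →L[ℂ] H, S.IsPositive ∧ S * S = Q := by
  have h0 : 0 ≤ Q := (ContinuousLinearMap.nonneg_iff_isPositive Q).2 hQ
  exact ⟨CFC.sqrt Q, (ContinuousLinearMap.nonneg_iff_isPositive _).1 (CFC.sqrt_nonneg Q),
    CFC.sqrt_mul_sqrt_self Q h0⟩

theorem exists_root {Q : L2 E →L[ℂ] L2 E} (hQ : Q.IsPositive) (hQ1 : (1 - Q).IsPositive) :
    ∃ S : L2 E →L[ℂ] L2 E, IsRoot S ∧ S * S = Q := by
  obtain ⟨S, hp, hSS⟩ := exists_sqrt hQ
  have hsymm : ∀ x y, ⟪S x, y⟫_ℂ = ⟪x, S y⟫_ℂ := fun x y => hp.inner_left_eq_inner_right x y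
  refine ⟨S, ⟨hsymm, fun x => ?_⟩, hSS⟩
  have h1 : ‖S x‖ ^ 2 = RCLike.re ⟪Q x, x⟫_ℂ := by
    rw [← inner_self_eq_norm_sq (𝕜 := ℂ), hsymm, ← hsymm, ← hsymm, ← hSS]
    rfl
  have h2 : 0 ≤ RCLike.re ⟪(1 - Q) x, x⟫_ℂ := hQ1.re_inner_nonneg_left x
  have h3 : RCLike.re ⟪(1 - Q) x, x⟫_ℂ = ‖x‖ ^ 2 - RCLike.re ⟪Q x, x⟫_ℂ := by
    rw [ContinuousLinearMap.sub_apply, inner_sub_left, map_sub]
    congr 1
    exact inner_self_eq_norm_sq x
  rw [h3] at h2
  exact le_of_sq_le_sq (by linarith) (norm_nonneg _)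

theorem IsDeterminantal.exists_corr {μ : Measure (E → Bool)} (h : IsDeterminantal μ) :
    IsProbabilityMeasure μ ∧ ∃ S : L2 E →L[ℂ] L2 E, IsRoot S ∧ Corr S μ := by
  obtain ⟨hp, Q, hQ, hQ1, hT⟩ := h
  obtain ⟨S, hS, hSQ⟩ := exists_root hQ hQ1
  refine ⟨hp, S, hS, fun T => ?_⟩
  rw [hT T, ← hSQ]
  rfl

open Classical in
/-- the drift of a measure: limit over the net of finite sets of the tilted marginals -/
noncomputable def dft (μ : Measure (E → Bool)) (w : E → ℝ) (e : E) : ℝ :=
  if ∃ C : ℝ, LB C w then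
    limUnder atTop (fun F : Finset E => upr F.powerset (qq μ F) w e)
  else 0

theorem tendsto_cut {w : E → ℝ} (f : E) :
    Tendsto (fun F : Finset E => cut F w f) atTop (𝓝 (w f)) := by
  refine tendsto_const_nhds.congr' ?_
  filter_upwards [eventually_ge_atTop ({f} : Finset E)] with F hF
  have hf : f ∈ F := hF (Finset.mem_singleton_self f)
  rw [cut, if_pos hf]

section

variable {S : L2 E →L[ℂ] L2 E} (hS : IsRoot S) {μ : Measure (E → Bool)} [IsProbabilityMeasure μ]
  (hμ : Corr S μ)

include hS hμ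

theorem tendsto_upr_net [DecidableEq E] {w : E → ℝ} {C : ℝ} (hw : LB C w) (e : E) :
    Tendsto (fun F : Finset E => upr F.powerset (qq μ F) w e) atTop (𝓝 (w e * rr S w e)) := by
  have hC : 0 ≤ C := (abs_nonneg _).trans (hw e).2
  have h1 : Tendsto (fun F : Finset E => w e * rr S (cut F w) e) atTop (𝓝 (w e * rr S w e)) :=
    (tendsto_rr hS hC hw (fun F => hw.cut hC F) (fun f => tendsto_cut f) e).const_mul _
  refine h1.congr' ?_
  filter_upwards [eventually_ge_atTop ({e} : Finset E)] with F hF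
  rw [upr_link hS hμ F hw.pos (hF (Finset.mem_singleton_self e))]

theorem dft_eq {w : E → ℝ} {C : ℝ} (hw : LB C w) (e : E) : dft μ w e = w e * rr S w e := by
  classical
  unfold dft
  rw [if_pos ⟨C, hw⟩]
  exact (tendsto_upr_net hS hμ hw e).limUnder_eq

theorem tendsto_dft [DecidableEq E] {w : E → ℝ} {C : ℝ} (hw : LB C w) (e : E) :
    Tendsto (fun F : Finset E => upr F.powerset (qq μ F) w e) atTop (𝓝 (dft μ w e)) := by
  rw [dft_eq hS hμ hw]
  exact tendsto_upr_net hS hμ hw e

theorem isDrift_dft : IsDrift (dft μ) := by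
  classical
  refine ⟨fun w hw e => ?_, fun w hw e => ?_, fun w w' hw hw' δ hδ e => ?_⟩
  · by_cases h : ∃ C, LB C w
    · obtain ⟨C, hC⟩ := h
      exact ge_of_tendsto' (tendsto_dft hS hμ hC e) fun F => upr_nonneg (prior_qq μ F) hw e
    · unfold dft; rw [if_neg h]
  · by_cases h : ∃ C, LB C w
    · obtain ⟨C, hC⟩ := h
      exact le_of_tendsto' (tendsto_dft hS hμ hC e) fun F => upr_le_one (prior_qq μ F) hw e
    · unfold dft; rw [if_neg h]; exact zero_le_one
  · have hδ0 : 0 ≤ δ := (abs_nonneg _).trans (hδ e)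
    by_cases h : ∃ C, LB C w
    · obtain ⟨C, hC⟩ := h
      have hC' : LB (C + δ) w' := fun f => ⟨hw' f, by
        have h1 := (hC f).2
        have h2 := hδ f
        rw [abs_le] at h1 h2 ⊢
        constructor <;> linarith⟩
      refine le_of_tendsto' (((tendsto_dft hS hμ hC e).sub (tendsto_dft hS hμ hC' e)).abs)
        fun F => ?_
      exact (isDrift_upr hS hμ F).lip w w' hw hw' δ hδ e
    · have h' : ¬ ∃ C, LB C w' := by
        rintro ⟨C, hC⟩
        exact h ⟨C + δ, fun f => ⟨hw f, by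
          have h1 := (hC f).2
          have h2 := hδ f
          rw [abs_le] at h1 h2 ⊢
          constructor <;> linarith⟩⟩
      unfold dft
      rw [if_neg h, if_neg h', sub_zero, abs_zero]
      linarith

theorem convDriftB_dft [DecidableEq E] (F : ℕ → Finset E) (hF : Monotone F)
    (hFE : ∀ e, ∃ n, e ∈ F n) :
    ConvDriftB (fun n => upr (F n).powerset (qq μ (F n))) (dft μ) := by
  intro w wn K hw hwn hwK hwnK hlim e
  have hLB : LB K w := fun f => ⟨hw f, hwK f⟩
  have hLBn : ∀ n, LB K (wn n) := fun n f => ⟨hwn n f, hwnK n f⟩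
  have hK : 0 ≤ K := (abs_nonneg _).trans (hwK e)
  rw [dft_eq hS hμ hLB]
  have hev : ∀ f, ∀ᶠ n in atTop, f ∈ F n := by
    intro f
    obtain ⟨n, hn⟩ := hFE f
    filter_upwards [eventually_ge_atTop n] with m hm using hF hm hn
  have hcut : ∀ f, Tendsto (fun n => cut (F n) (wn n) f) atTop (𝓝 (w f)) := by
    intro f
    refine (hlim f).congr' ?_
    filter_upwards [hev f] with n hn
    rw [cut, if_pos hn]
  have h1 := (hlim e).mul (tendsto_rr hS hK hLB (fun n => (hLBn n).cut hK (F n)) hcut e)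
  refine h1.congr' ?_
  filter_upwards [hev e] with n hn
  rw [upr_link hS hμ (F n) (hwn n) hn]

end

/-- joint measurability of the drift in the measure and the weights -/
theorem measurable_dft [Countable E] (e : E) :
    Measurable fun p : Measure (E → Bool) × (E → ℝ) => dft p.1 p.2 e := by
  classical
  have hLB : MeasurableSet {p : Measure (E → Bool) × (E → ℝ) | ∃ C : ℝ, LB C p.2} := by
    have h1 : {p : Measure (E → Bool) × (E → ℝ) | ∃ C : ℝ, LB C p.2} =
        ⋃ C : ℕ, ⋂ f : E, {p | 0 < p.2 f} ∩ {p | |Real.log (p.2 f)| ≤ C} := by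
      ext p
      simp only [LB, Set.mem_ofPred_eq, Set.mem_iUnion, Set.mem_iInter, Set.mem_inter_iff]
      constructor
      · rintro ⟨C, hC⟩
        obtain ⟨n, hn⟩ := exists_nat_ge C
        exact ⟨n, fun f => ⟨(hC f).1, (hC f).2.trans hn⟩⟩
      · rintro ⟨n, hn⟩
        exact ⟨n, hn⟩
    rw [h1]
    refine MeasurableSet.iUnion fun C => MeasurableSet.iInter fun f => MeasurableSet.inter ?_ ?_
    · exact measurableSet_lt measurable_const (by fun_prop)
    · exact measurableSet_le (by fun_prop) measurable_const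
  have hq : ∀ F T : Finset E, Measurable fun p : Measure (E → Bool) × (E → ℝ) => qq p.1 F T := by
    intro F T
    unfold qq Measure.real
    exact ((Measure.measurable_coe (measurableSet_cyl' F T)).ennreal_toReal).comp measurable_fst
  have hu : ∀ F : Finset E, Measurable fun p : Measure (E → Bool) × (E → ℝ) =>
      upr F.powerset (qq p.1 F) p.2 e := by
    intro F
    unfold upr
    refine Measurable.div ?_ ?_
    · refine Finset.measurable_sum _ fun T _ => (hq F T).mul ?_
      exact Finset.measurable_prod _ fun j _ => by fun_prop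
    · refine Finset.measurable_sum _ fun T _ => (hq F T).mul ?_
      exact Finset.measurable_prod _ fun j _ => by fun_prop
  unfold dft
  refine Measurable.ite hLB ?_ measurable_const
  exact (StronglyMeasurable.limUnder fun F => (hu F).stronglyMeasurable).measurable

end Vale.Agent.P143.H71
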