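import Vale.Agent.P143.H71.Law
import Vale.Agent.P143.H536.Factor

/-!
Equivariance of the drift and the universal rule for determinantal measures.
-/

namespace Vale.Agent.P143.H71

open Filter Topology MeasureTheory unitInterval
open scoped ENNReal NNReal
open H536

variable {E : Type*}

theorem LB_comp {E' : Type*} (τ : E ≃ E') {C : ℝ} {w : E' → ℝ} : LB C (w ∘ τ) ↔ LB C w := by
  constructor
  · intro h e
    have := h (τ.symm e)
    simpa using this
  · intro h e
    exact h (τ e)

/-- transport of a measure by a bijection of the index sets -/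
noncomputable def tr {E' : Type*} (τ : E ≃ E') (μ : Measure (E → Bool)) : Measure (E' → Bool) :=
  μ.map fun ω y => ω (τ.symm y)

theorem measurable_tr {E' : Type*} (τ : E ≃ E') :
    Measurable fun (ω : E → Bool) (y : E') => ω (τ.symm y) :=
  measurable_pi_iff.2 fun y => measurable_pi_apply (τ.symm y)

theorem qq_tr {E' : Type*} (τ : E ≃ E') (μ : Measure (E → Bool)) (F T : Finset E) :
    qq (tr τ μ) (F.map τ.toEmbedding) (T.map τ.toEmbedding) = qq μ F T := by
  unfold qq tr
  rw [map_measureReal_apply (measurable_tr τ) (measurableSet_cyl' _ _)]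
  congr 1
  ext ω
  simp only [Set.mem_preimage, Set.mem_ofPred_eq, Finset.mem_map, Equiv.coe_toEmbedding]
  constructor
  · intro h f hf
    have := h (τ f) ⟨f, hf, rfl⟩
    rw [Equiv.symm_apply_apply] at this
    rw [this]
    constructor
    · rintro ⟨g, hg, hgf⟩
      rwa [← τ.injective hgf]
    · intro hf'
      exact ⟨f, hf', rfl⟩
  · rintro h _ ⟨f, hf, rfl⟩
    rw [Equiv.symm_apply_apply, h f hf]
    constructor
    · intro hf'
      exact ⟨f, hf', rfl⟩
    · rintro ⟨g, hg, hgf⟩
      rwa [← τ.injective hgf]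

theorem sum_powerset_map {E' : Type*} [DecidableEq E] [DecidableEq E'] (τ : E ≃ E')
    (F : Finset E) (g : Finset E' → ℝ) :
    ∑ T ∈ (F.map τ.toEmbedding).powerset, g T = ∑ T ∈ F.powerset, g (T.map τ.toEmbedding) := by
  symm
  refine Finset.sum_bij (fun T _ => T.map τ.toEmbedding) ?_ ?_ ?_ ?_
  · intro T hT
    rw [Finset.mem_powerset] at hT ⊢
    exact Finset.map_subset_map.2 hT
  · intro T _ T' _ h
    exact Finset.map_injective _ h
  · intro T hT
    rw [Finset.mem_powerset] at hT
    refine ⟨T.map τ.symm.toEmbedding, ?_, ?_⟩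
    · rw [Finset.mem_powerset]
      intro x hx
      obtain ⟨y, hy, rfl⟩ := Finset.mem_map.1 hx
      obtain ⟨z, hz, rfl⟩ := Finset.mem_map.1 (hT hy)
      simpa using hz
    · ext x
      simp
  · intro T _
    rfl

theorem upr_tr {E' : Type*} [DecidableEq E] [DecidableEq E'] (τ : E ≃ E')
    (μ : Measure (E → Bool)) (F : Finset E) (w : E' → ℝ) (x : E) :
    upr (F.map τ.toEmbedding).powerset (qq (tr τ μ) (F.map τ.toEmbedding)) w (τ x) =
      upr F.powerset (qq μ F) (w ∘ τ) x := by
  unfold upr
  rw [Finset.sum_filter, Finset.sum_filter, sum_powerset_map, sum_powerset_map]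
  congr 1
  · refine Finset.sum_congr rfl fun T _ => ?_
    have h1 : τ x ∈ T.map τ.toEmbedding ↔ x ∈ T := by
      rw [Finset.mem_map_equiv]; simp
    simp only [h1, qq_tr, Finset.prod_map, Equiv.coe_toEmbedding, Function.comp_apply]
  · refine Finset.sum_congr rfl fun T _ => ?_
    simp only [qq_tr, Finset.prod_map, Equiv.coe_toEmbedding, Function.comp_apply]

/-- equivariance of the drift under bijections -/
theorem dft_tr {E' : Type*} (τ : E ≃ E') (μ : Measure (E → Bool)) (w : E' → ℝ) (x : E) :
    dft (tr τ μ) w (τ x) = dft μ (w ∘ τ) x := by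
  classical
  unfold dft
  by_cases h : ∃ C, LB C w
  · have h' : ∃ C, LB C (w ∘ τ) := by
      obtain ⟨C, hC⟩ := h
      exact ⟨C, (LB_comp τ).2 hC⟩
    rw [if_pos h, if_pos h']
    have h1 : (fun F : Finset E => upr F.powerset (qq μ F) (w ∘ τ) x) =
        (fun F' : Finset E' => upr F'.powerset (qq (tr τ μ) F') w (τ x)) ∘
          fun F => F.map τ.toEmbedding := by
      funext F
      exact (upr_tr τ μ F w x).symm
    have h2 : Filter.map (fun F : Finset E => F.map τ.toEmbedding) atTop = atTop :=
      (τ.finsetCongr : Finset E ≃ Finset E').toOrderIso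
        (fun a b h => Finset.map_subset_map.2 h)
        (fun a b h => Finset.map_subset_map.2 h) |>.map_atTop
    unfold limUnder
    rw [h1, ← Filter.map_map, h2]
  · have h' : ¬ ∃ C, LB C (w ∘ τ) := by
      rintro ⟨C, hC⟩
      exact h ⟨C, (LB_comp τ).1 hC⟩
    rw [if_neg h, if_neg h']

theorem conf_eq (μ : Measure (E → Bool)) (z : E → ℝ) : conf μ z = H536.conf (dft μ) z := by
  funext e
  rw [Bool.eq_iff_iff, conf_eq_true, H536.conf_eq_true]

/-- the drift of a determinantal measure is good -/
theorem good_dft [Countable E] {μ : Measure (E → Bool)} (hμ : IsDeterminantal μ) :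
    Good (dft μ) μ := by
  have hex := hμ.exists_corr
  have hp : IsProbabilityMeasure μ := hex.1
  obtain ⟨S₀, hS₀, hcorr⟩ := hex.2
  refine ⟨isDrift_dft hS₀ hcorr, fun e => ?_, ?_⟩
  · have h := (measurable_dft e).comp (f := fun w : E → ℝ => (μ, w))
      (measurable_const.prodMk measurable_id)
    exact h
  · have h := law_conf hμ (Measure.infinitePi fun _ : E => logistic) (fun z => z) measurable_id
      (fun S => Measure.infinitePi_map_restrict (μ := fun _ : E => logistic))
    have h1 : (fun z : E → ℝ => conf μ z) = H536.conf (dft μ) := funext fun z => conf_eq μ z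
    rwa [h1] at h

/-- the universal rule -/
noncomputable def rul (μ : Measure (E → Bool)) (U : E → I) : E → Bool :=
  conf μ fun e => dec (U e)

theorem measurable_rul [Countable E] :
    Measurable fun p : Measure (E → Bool) × (E → I) => rul p.1 p.2 := by
  have h1 : Measurable fun p : Measure (E → Bool) × (E → I) =>
      (p.1, fun e => dec (p.2 e)) := by
    refine measurable_fst.prodMk (measurable_pi_iff.2 fun e => ?_)
    exact measurable_dec.comp ((measurable_pi_apply e).comp measurable_snd)
  have h2 := measurable_conf.comp h1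
  simp only [Function.comp_def] at h2
  exact h2

theorem rul_tr {E' : Type*} (τ : E ≃ E') (μ : Measure (E → Bool)) (U : E → I) (x : E) :
    rul (tr τ μ) (U ∘ τ.symm) (τ x) = rul μ U x := by
  unfold rul
  rw [conf_eq, conf_eq]
  have h := H536.conf_comap (τ : E → E') (dft (tr τ μ)) (dft μ)
    (fun w _ x => dft_tr τ μ w x) (fun e => dec ((U ∘ τ.symm) e)) x
  rw [h]
  congr 1
  funext y
  simp

theorem rul_law [Countable E] {μ : Measure (E → Bool)} (hμ : IsDeterminantal μ) :
    (iidLabels E).map (rul μ) = μ := by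
  have h := (good_dft hμ).label_law
  have h1 : (fun U : E → I => H536.conf (dft μ) fun e => dec (U e)) = rul μ := by
    funext U
    exact (conf_eq μ _).symm
  rwa [h1] at h

/-- invariant determinantal measures have an invariant drift -/
theorem dft_smul {Γ : Type*} [Group Γ] [MulAction Γ E] {μ : Measure (E → Bool)}
    (hinv : ∀ γ : Γ, μ.map (fun ω x => ω (γ⁻¹ • x)) = μ) (γ : Γ) (w : E → ℝ) (x : E) :
    dft μ w (γ • x) = dft μ (fun y => w (γ • y)) x := by
  have h := dft_tr (MulAction.toPerm γ : E ≃ E) μ w x
  have h1 : tr (MulAction.toPerm γ : E ≃ E) μ = μ := by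
    unfold tr
    exact hinv γ
  rw [h1] at h
  exact h

end Vale.Agent.P143.H71
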