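import Vale.Agent.P143.H71.Univ
import Vale.Agent.P143.H726.Root

/-!
The universal rule and the group version for determinantal measures with matrix kernels.
-/

namespace Vale.Agent.P143.H71

open Filter Topology MeasureTheory unitInterval
open scoped InnerProductSpace

variable {E : Type*}

theorem isPositive_of_root {S : L2 E →L[ℂ] L2 E} (hS : IsRoot S) :
    (S * S).IsPositive ∧ (1 - S * S).IsPositive := by
  constructor
  · rw [ContinuousLinearMap.isPositive_iff_complex]
    intro x
    have h1 : ⟪(S * S) x, x⟫_ℂ = ((‖S x‖ ^ 2 : ℝ) : ℂ) := by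
      have : (S * S) x = S (S x) := rfl
      rw [this, hS.symm, inner_self_eq_norm_sq_to_K]
      push_cast
      rfl
    rw [h1]
    constructor
    · rw [RCLike.re_to_complex, Complex.ofReal_re]
    · rw [RCLike.re_to_complex, Complex.ofReal_re]
      positivity
  · rw [ContinuousLinearMap.isPositive_iff_complex]
    intro x
    have h1 : ⟪(1 - S * S) x, x⟫_ℂ = ((‖x‖ ^ 2 - ‖S x‖ ^ 2 : ℝ) : ℂ) := by
      have : (1 - S * S) x = x - S (S x) := rfl
      rw [this, inner_sub_left, hS.symm, inner_self_eq_norm_sq_to_K, inner_self_eq_norm_sq_to_K]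
      push_cast
      rfl
    rw [h1]
    constructor
    · rw [RCLike.re_to_complex, Complex.ofReal_re]
    · rw [RCLike.re_to_complex, Complex.ofReal_re]
      have := pow_le_pow_left₀ (norm_nonneg _) (hS.le x) 2
      linarith

theorem bridge : Bridge := by
  intro X _ _ μ hμ
  obtain ⟨Q, ⟨hQ0, hQ1⟩, hp, hdet⟩ := hμ
  obtain ⟨S, hS, hSQ⟩ := H726.exists_root hQ0 hQ1
  refine ⟨hp, S * S, (isPositive_of_root hS).1, (isPositive_of_root hS).2, fun T => ?_⟩
  rw [hdet T]
  have h : Q.submatrix (fun x : T => (x : X)) (fun x : T => (x : X)) =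
      Matrix.of fun e f : T => ((S * S) (delta (f : X)) : X → ℂ) e := by
    ext e f
    exact (hSQ e f).symm
  rw [h]
  congr 1

/-- one Borel rule for all determinantal measures -/
theorem universal : Det.Universal := universal_of bridge

/-- all invariant determinantal measures are factors of iid -/
theorem groups : Det.Groups := groups_of bridge

end Vale.Agent.P143.H71
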