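import Vale.Agent.P143.H71.Drift

/-!
The limiting configuration of the flow has the law of the determinantal measure.
-/

namespace Vale.Agent.P143.H71

open Filter Topology MeasureTheory
open scoped ENNReal NNReal
open H536

variable {E : Type*}

/-- probability measures on `{0,1}^E` with the same cylinder probabilities are equal -/
theorem ext_cyl {μ ν : Measure (E → Bool)} [IsProbabilityMeasure μ] [IsProbabilityMeasure ν]
    (h : ∀ S B : Finset E, B ⊆ S → μ.real {ω | ∀ e ∈ S, (ω e = true ↔ e ∈ B)} =
      ν.real {ω | ∀ e ∈ S, (ω e = true ↔ e ∈ B)}) : μ = ν := by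
  classical
  refine IsProjectiveLimit.unique (P := fun I : Finset E => ν.map I.restrict) (fun I => ?_)
    (fun I => rfl)
  refine Measure.ext_of_singleton fun x => ?_
  have hm : MeasurableSet ({x} : Set (I → Bool)) := measurableSet_singleton x
  rw [Measure.map_apply (Finset.measurable_restrict I) hm,
    Measure.map_apply (Finset.measurable_restrict I) hm]
  have hset : (I.restrict ⁻¹' {x} : Set (E → Bool)) = {ω | ∀ e ∈ I, (ω e = true ↔
      e ∈ ((Finset.univ.filter fun e : I => x e = true).map (Function.Embedding.subtype _)))} := by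
    ext ω
    simp only [Set.mem_preimage, Set.mem_singleton_iff, Set.mem_ofPred_eq, Finset.mem_map,
      Finset.mem_filter, Finset.mem_univ, true_and, Function.Embedding.subtype_apply]
    constructor
    · rintro h e he
      have : x ⟨e, he⟩ = ω e := by rw [← h]; rfl
      constructor
      · intro h1
        exact ⟨⟨e, he⟩, by rw [this, h1], rfl⟩
      · rintro ⟨⟨f, hf⟩, h1, rfl⟩
        rw [← this]; exact h1
    · intro h
      funext e
      have h1 := h e e.2
      rw [Finset.restrict_def]
      rw [Bool.eq_iff_iff, h1]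
      constructor
      · rintro ⟨f, hf, hfe⟩
        rwa [Subtype.ext hfe] at hf
      · intro hx
        exact ⟨e, hx, rfl⟩
  rw [hset]
  have h2 := h I ((Finset.univ.filter fun e : I => x e = true).map (Function.Embedding.subtype _))
    (by
      intro e he
      obtain ⟨f, _, rfl⟩ := Finset.mem_map.1 he
      exact f.2)
  rwa [measureReal_def, measureReal_def, ENNReal.toReal_eq_toReal_iff' (measure_ne_top _ _)
    (measure_ne_top _ _)] at h2

/-- marginals of the finite dimensional distributions -/
theorem sum_qq_inter [DecidableEq E] (μ : Measure (E → Bool)) [IsProbabilityMeasure μ]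
    {F S B : Finset E} (hSF : S ⊆ F) (hB : B ⊆ S) :
    ∑ T ∈ F.powerset.filter (fun T => T ∩ S = B), qq μ F T = qq μ S B := by
  unfold qq
  rw [← measureReal_biUnion_finset (s := F.powerset.filter (fun T => T ∩ S = B))
    (f := fun T => {ω : E → Bool | ∀ f ∈ F, (ω f = true ↔ f ∈ T)})]
  · congr 1
    ext ω
    simp only [Finset.mem_filter, Finset.mem_powerset, Set.mem_iUnion, exists_prop,
      Set.mem_ofPred_eq]
    constructor
    · rintro ⟨T, ⟨_, hTS⟩, h⟩ e he
      rw [h e (hSF he), ← hTS, Finset.mem_inter]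
      exact ⟨fun h => ⟨h, he⟩, fun h => h.1⟩
    · intro h
      refine ⟨F.filter fun e => ω e = true, ⟨Finset.filter_subset _ _, ?_⟩, ?_⟩
      · ext e
        rw [Finset.mem_inter, Finset.mem_filter]
        constructor
        · rintro ⟨⟨_, h1⟩, h2⟩
          exact (h e h2).1 h1
        · intro he
          exact ⟨⟨hSF (hB he), (h e (hB he)).2 he⟩, hB he⟩
      · intro f hf
        simp [hf]
  · intro T hT T' hT' hne
    simp only [Finset.coe_filter, Finset.mem_powerset, Set.mem_ofPred_eq] at hT hT'
    rw [Function.onFun, Set.disjoint_left]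
    intro ω h1 h2
    apply hne
    ext f
    constructor
    · intro hf
      exact (h2 f (hT.1 hf)).1 ((h1 f (hT.1 hf)).2 hf)
    · intro hf
      exact (h1 f (hT'.1 hf)).1 ((h2 f (hT'.1 hf)).2 hf)
  · intro T _
    exact measurableSet_cyl' F T

theorem exists_exhaustion_finset [Countable E] :
    ∃ F : ℕ → Finset E, Monotone F ∧ ∀ e, ∃ n, e ∈ F n := by
  classical
  obtain ⟨f, hf⟩ := exists_injective_nat E
  have hfin : ∀ n : ℕ, {e : E | f e ≤ n}.Finite := fun n =>
    Set.Finite.preimage hf.injOn (Set.finite_Iic n)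
  refine ⟨fun n => (hfin n).toFinset, fun m n hmn e he => ?_, fun e => ⟨f e, by simp⟩⟩
  simp only [Set.Finite.mem_toFinset, Set.mem_ofPred_eq] at he ⊢
  exact he.trans hmn

open Classical in
/-- the random configuration produced from logistic noise -/
noncomputable def conf (μ : Measure (E → Bool)) (z : E → ℝ) (e : E) : Bool :=
  decide (e ∈ limitSet (dft μ) z)

theorem conf_eq_true (μ : Measure (E → Bool)) (z : E → ℝ) (e : E) :
    conf μ z e = true ↔ e ∈ limitSet (dft μ) z := by
  simp [conf]

/-- joint measurability -/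
theorem measurable_conf [Countable E] :
    Measurable fun p : Measure (E → Bool) × (E → ℝ) => conf p.1 p.2 := by
  refine measurable_pi_iff.2 fun e => ?_
  have h1 : ∀ N : ℕ, Measurable fun p : Measure (E → Bool) × (E → ℝ) =>
      flow (dft p.1) N p.2 e := by
    intro N
    unfold flow
    exact (StronglyMeasurable.limUnder fun j =>
      (Vale.Agent.P143.measurable_euler (Θ := Measure (E → Bool)) (fun μ => dft μ)
        measurable_dft (1 / 2 ^ j) (N * 2 ^ j) e).stronglyMeasurable).measurable
  refine measurable_to_bool ?_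
  have : ((fun p : Measure (E → Bool) × (E → ℝ) => conf p.1 p.2 e) ⁻¹' {true}) =
      ⋃ n : ℕ, ⋂ N : ℕ, ⋂ _ : n ≤ N, {p | (N : ℝ) / 2 ≤ flow (dft p.1) N p.2 e} := by
    ext p
    simp only [Set.mem_preimage, Set.mem_singleton_iff, conf_eq_true, limitSet, eventually_atTop,
      Set.mem_ofPred_eq, Set.mem_iUnion, Set.mem_iInter, ge_iff_le]
  rw [this]
  exact MeasurableSet.iUnion fun n => MeasurableSet.iInter fun N => MeasurableSet.iInter
    fun _ => measurableSet_le measurable_const (h1 N)

/-- cylinder probabilities of the configuration -/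
theorem cyl_conf [Countable E] [DecidableEq E] {S₀ : L2 E →L[ℂ] L2 E} (hS₀ : IsRoot S₀)
    {μ : Measure (E → Bool)} [IsProbabilityMeasure μ] (hcorr : Corr S₀ μ)
    {Ω : Type*} [MeasurableSpace Ω] (ℙ : Measure Ω) [IsProbabilityMeasure ℙ] (Z : Ω → E → ℝ)
    (hZ : Measurable Z) (hlaw : ∀ S : Finset E,
      Measure.map (fun ω (e : S) => Z ω e) ℙ = Measure.pi fun _ => logistic)
    (S B : Finset E) (hB : B ⊆ S) :
    ℙ.real {ω | ∀ e ∈ S, (e ∈ limitSet (dft μ) (Z ω) ↔ e ∈ B)} = qq μ S B := by
  obtain ⟨F, hF, hFE⟩ := exists_exhaustion_finset (E := E)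
  have hmd : ∀ e, Measurable fun w : E → ℝ => dft μ w e := fun e =>
    (measurable_dft e).comp (measurable_const.prodMk measurable_id)
  have han : ∀ n, IsDrift (upr (F n).powerset (qq μ (F n))) := fun n =>
    isDrift_upr hS₀ hcorr (F n)
  have hconv : ConvDriftB (fun n => upr (F n).powerset (qq μ (F n))) (dft μ) :=
    convDriftB_dft hS₀ hcorr F hF hFE
  have ha : IsDrift (dft μ) := isDrift_dft hS₀ hcorr
  have h1 := limit_mainq ℙ Set.univ F hF (fun e => ⟨fun _ => hFE e, fun _ => Set.mem_univ e⟩)
    (fun n => (F n).powerset) (fun n => qq μ (F n)) (fun n => prior_qq μ (F n))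
    (fun n T hT => Finset.mem_powerset.1 hT) (dft μ) ha hmd han hconv Z hZ
    (fun S _ => hlaw S) S B (Set.subset_univ _) hB
  refine tendsto_nhds_unique h1 (tendsto_const_nhds.congr' ?_)
  have h3 : ∀ᶠ n in atTop, S ⊆ F n := by
    have h4 : ∀ e ∈ S, ∀ᶠ n in atTop, e ∈ F n := by
      intro e _
      obtain ⟨n, hn⟩ := hFE e
      filter_upwards [eventually_ge_atTop n] with m hm using hF hm hn
    filter_upwards [(Filter.eventually_all_finset S).2 h4] with n hn e he using hn e he
  filter_upwards [h3] with n hn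
  rw [sum_qq_univ, div_one, sum_qq_inter μ hn hB]

/-- the law of the configuration -/
theorem law_conf [Countable E] {μ : Measure (E → Bool)} (hμ : IsDeterminantal μ)
    {Ω : Type*} [MeasurableSpace Ω] (ℙ : Measure Ω) [IsProbabilityMeasure ℙ] (Z : Ω → E → ℝ)
    (hZ : Measurable Z) (hlaw : ∀ S : Finset E,
      Measure.map (fun ω (e : S) => Z ω e) ℙ = Measure.pi fun _ => logistic) :
    ℙ.map (fun ω => conf μ (Z ω)) = μ := by
  classical
  have hex := hμ.exists_corr
  have hp : IsProbabilityMeasure μ := hex.1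
  obtain ⟨S₀, hS₀, hcorr⟩ := hex.2
  have h0 : Measurable fun ω => (μ, Z ω) := measurable_const.prodMk hZ
  have h00 := measurable_conf.comp h0
  simp only [Function.comp_def] at h00
  have hmeas : Measurable fun ω => conf μ (Z ω) := h00
  have hpm : IsProbabilityMeasure (ℙ.map (fun ω => conf μ (Z ω))) :=
    Measure.isProbabilityMeasure_map hmeas.aemeasurable
  refine ext_cyl fun S B hB => ?_
  have h5 := cyl_conf hS₀ hcorr ℙ Z hZ hlaw S B hB
  have h6 : μ.real {ω | ∀ e ∈ S, (ω e = true ↔ e ∈ B)} = qq μ S B := rfl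
  rw [h6, ← h5]
  have h7 : ((fun ω => conf μ (Z ω)) ⁻¹' {ω : E → Bool | ∀ e ∈ S, (ω e = true ↔ e ∈ B)}) =
      {ω | ∀ e ∈ S, (e ∈ limitSet (dft μ) (Z ω) ↔ e ∈ B)} := by
    ext ω
    simp only [Set.mem_preimage, Set.mem_ofPred_eq, conf_eq_true]
  rw [← h7]
  exact map_measureReal_apply hmeas (measurableSet_cyl' S B)

end Vale.Agent.P143.H71
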