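import Vale.Agent.P143.H71.Fin
import Vale.Agent.P143.H536.Glue

/-!
Locality of the drift for measures carried by a part of the index set.
-/

namespace Vale.Agent.P143.H71

open Filter Topology MeasureTheory unitInterval
open scoped ENNReal NNReal InnerProductSpace
open H536

variable {E : Type*}

theorem kv_eq_zero {S : L2 E →L[ℂ] L2 E} (hS : IsRoot S) {μ : Measure (E → Bool)}
    (hμ : Corr S μ) {e : E} (he : μ.real {ω | ω e = true} = 0) : kv S e = 0 := by
  classical
  have h1 := hμ {e}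
  have h2 : μ.real {ω : E → Bool | ∀ f ∈ ({e} : Finset E), ω f = true} = 0 := by
    have : {ω : E → Bool | ∀ f ∈ ({e} : Finset E), ω f = true} = {ω | ω e = true} := by
      ext ω; simp
    rw [this, he]
  rw [h2] at h1
  have h3 : (sec S ({e} : Finset E)).det = (S (S (delta e)) : E → ℂ) e := by
    rw [Matrix.det_unique]
    rfl
  have h4 : (S (S (delta e)) : E → ℂ) e = 0 := by
    rw [← h3]
    convert h1.symm using 1
    simp
  have h5 : ⟪S (delta e), S (delta e)⟫_ℂ = 0 := by
    rw [hS.symm]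
    have h6 : ⟪delta e, S (S (delta e))⟫_ℂ = (S (S (delta e)) : E → ℂ) e := by
      unfold delta
      rw [lp.inner_single_left]
      simp
    rw [h6, h4]
  rw [kv_eq]
  exact inner_self_eq_zero.1 h5

theorem apply_eq_zero {S : L2 E →L[ℂ] L2 E} (hS : IsRoot S) {e : E} (he : kv S e = 0)
    (x : L2 E) : (S x : E → ℂ) e = 0 := by
  classical
  have h6 : ⟪delta e, S x⟫_ℂ = (S x : E → ℂ) e := by
    unfold delta
    rw [lp.inner_single_left]
    simp
  rw [← h6, ← hS.symm, ← kv_eq, he, inner_zero_left]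

theorem dft_eq_zero {μ : Measure (E → Bool)} (hμ : IsDeterminantal μ) {e : E}
    (he : μ.real {ω | ω e = true} = 0) (w : E → ℝ) : dft μ w e = 0 := by
  classical
  have hex := hμ.exists_corr
  have hp : IsProbabilityMeasure μ := hex.1
  obtain ⟨S₀, hS₀, hcorr⟩ := hex.2
  by_cases h : ∃ C, LB C w
  · obtain ⟨C, hC⟩ := h
    rw [dft_eq hS₀ hcorr hC, rr, kv_eq_zero hS₀ hcorr he, inner_zero_left, map_zero, mul_zero]
  · unfold dft
    rw [if_neg h]

theorem localOn_dft {μ : Measure (E → Bool)} (hμ : IsDeterminantal μ) {A : Set E}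
    (hA : ∀ e ∉ A, μ.real {ω | ω e = true} = 0) : LocalOn A (dft μ) := by
  have hex := hμ.exists_corr
  have hp : IsProbabilityMeasure μ := hex.1
  obtain ⟨S₀, hS₀, hcorr⟩ := hex.2
  intro w w' K hw hw' hK hK' hww e he
  have h1 : LB K w := fun f => ⟨hw f, hK f⟩
  have h2 : LB K w' := fun f => ⟨hw' f, hK' f⟩
  rw [dft_eq hS₀ hcorr h1, dft_eq hS₀ hcorr h2, hww e he]
  congr 1
  have h3 : ∀ x, mulOp w (S₀ x) = mulOp w' (S₀ x) := by
    intro x
    ext f
    rw [mulOp_apply h1.abs_le, mulOp_apply h2.abs_le]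
    by_cases hf : f ∈ A
    · rw [hww f hf]
    · rw [apply_eq_zero hS₀ (kv_eq_zero hS₀ hcorr (hA f hf)) x, mul_zero, mul_zero]
  have h4 : Bw S₀ w = Bw S₀ w' := by
    ext1 x
    rw [Bw_apply, Bw_apply, h3]
  unfold rr sol
  rw [h4]

end Vale.Agent.P143.H71
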