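import Vale.Agent.P143.H71.Op
import Mathlib.LinearAlgebra.Matrix.Charpoly.Coeff
import Mathlib.LinearAlgebra.Matrix.SchurComplement

/-!
Determinantal measures: generating polynomial and marginals of the tilted measure.
-/

namespace Vale.Agent.P143.H71

open Filter Topology MeasureTheory
open scoped InnerProductSpace ComplexConjugate ENNReal NNReal

section matrix

variable {n : Type*} [Fintype n] [DecidableEq n]

theorem det_one_add_diagonal_mul (u : n → ℂ) (K : Matrix n n ℂ) :
    (1 + Matrix.diagonal u * K).det =
      ∑ s : Finset n, (∏ i ∈ s, u i) * (K.submatrix (Subtype.val : s → n) Subtype.val).det := by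
  let D := (Matrix.detRowAlternating : (n → ℂ) [⋀^n]→ₗ[ℂ] ℂ)
  rw [add_comm]
  have h1 : (Matrix.diagonal u * K + 1).det =
      D ((fun i => (Matrix.diagonal u * K) i) + fun i => (1 : Matrix n n ℂ) i) := rfl
  rw [h1, D.map_add_univ]
  refine Finset.sum_congr rfl fun s _ => ?_
  have h2 : s.piecewise (fun i => (Matrix.diagonal u * K) i) (fun i => (1 : Matrix n n ℂ) i) =
      fun i => (if i ∈ s then u i else 1) •
        s.piecewise (fun i => K i) (fun i => (1 : Matrix n n ℂ) i) i := by
    funext i j
    by_cases hi : i ∈ s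
    · simp [Finset.piecewise, hi, Matrix.diagonal_mul]
    · simp [Finset.piecewise, hi]
  rw [h2, D.map_smul_univ]
  simp only [Finset.prod_ite_mem, Finset.univ_inter, smul_eq_mul]
  congr 1
  exact Matrix.det_piecewise_one_eq_submatrix_det K s

/-- determinant lemma in the form that is needed -/
theorem det_update {M : Matrix n n ℂ} {y k : n → ℂ} :
    (M + Matrix.vecMulVec (M.mulVec y) k).det = M.det * (1 + k ⬝ᵥ y) := by
  have h1 : M + Matrix.vecMulVec (M.mulVec y) k = M * (1 + Matrix.vecMulVec y k) := by
    rw [mul_add, mul_one, Matrix.mul_vecMulVec]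
  rw [h1, Matrix.det_mul, Matrix.vecMulVec_eq Unit, Matrix.det_one_add_replicateCol_mul_replicateRow]

end matrix

end Vale.Agent.P143.H71
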