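import Vale.Agent.P143.H71.Mat

namespace Vale.Agent.P143.H71

open Filter Topology MeasureTheory
open scoped InnerProductSpace ComplexConjugate ENNReal NNReal

variable {E : Type*}

open Classical in
/-- basis vector of `ℓ²(E)` -/
noncomputable def delta (e : E) : L2 E := lp.single 2 e 1

open Classical in
theorem delta_apply (e f : E) : (delta e : E → ℂ) f = if f = e then 1 else 0 := by
  unfold delta
  rw [lp.single_apply]
  by_cases h : f = e
  · subst h; simp
  · rw [Pi.single_eq_of_ne h, if_neg h]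

theorem kv_eq (S : L2 E →L[ℂ] L2 E) (e : E) : kv S e = S (delta e) := rfl

theorem eq_sum_of_support {F : Finset E} {y : L2 E} (h : ∀ f, f ∉ F → (y : E → ℂ) f = 0) :
    y = ∑ g ∈ F, (y : E → ℂ) g • delta g := by
  classical
  ext f
  rw [lp.coeFn_sum, Finset.sum_apply]
  have h1 : ∀ g ∈ F, ((((y : E → ℂ) g) • delta g : L2 E) : E → ℂ) f =
      if f = g then (y : E → ℂ) f else 0 := by
    intro g _
    rw [lp.coeFn_smul, Pi.smul_apply, delta_apply]
    by_cases hfg : f = g
    · subst hfg; simp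
    · simp [hfg]
  rw [Finset.sum_congr rfl h1, Finset.sum_ite_eq]
  split_ifs with hf
  · rfl
  · exact h f hf

theorem apply_of_support {F : Finset E} {y : L2 E} (h : ∀ f, f ∉ F → (y : E → ℂ) f = 0)
    (T : L2 E →L[ℂ] L2 E) (f : E) :
    (T y : E → ℂ) f = ∑ g : F, (T (delta (g : E)) : E → ℂ) f * (y : E → ℂ) g := by
  conv_lhs => rw [eq_sum_of_support h]
  rw [map_sum, lp.coeFn_sum, Finset.sum_apply, ← Finset.sum_coe_sort F]
  refine Finset.sum_congr rfl fun g _ => ?_
  rw [map_smul, lp.coeFn_smul, Pi.smul_apply, smul_eq_mul, mul_comm]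

open Classical in
/-- weights that are `1` outside a finite set -/
noncomputable def cut (F : Finset E) (w : E → ℝ) (f : E) : ℝ := if f ∈ F then w f else 1

theorem exists_LB_cut (F : Finset E) {w : E → ℝ} (hw : ∀ f, 0 < w f) :
    ∃ C, 0 ≤ C ∧ LB C (cut F w) := by
  refine ⟨∑ f ∈ F, |Real.log (w f)|, Finset.sum_nonneg fun _ _ => abs_nonneg _, fun f => ?_⟩
  unfold cut
  split_ifs with h
  · exact ⟨hw f, Finset.single_le_sum (f := fun f => |Real.log (w f)|)
      (fun _ _ => abs_nonneg _) h⟩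
  · simp only [zero_lt_one, Real.log_one, abs_zero, true_and]
    exact Finset.sum_nonneg fun _ _ => abs_nonneg _

theorem LB.cut {C : ℝ} {w : E → ℝ} (hw : LB C w) (hC : 0 ≤ C) (F : Finset E) :
    LB C (cut F w) := by
  intro f
  unfold H71.cut
  split_ifs with h
  · exact hw f
  · simpa using hC

/-- finite section of `S²` -/
noncomputable def sec (S : L2 E →L[ℂ] L2 E) (F : Finset E) : Matrix F F ℂ :=
  Matrix.of fun f g => (S (S (delta (g : E))) : E → ℂ) f

theorem det_link {S : L2 E →L[ℂ] L2 E} (hS : IsRoot S) (F : Finset E) {w : E → ℝ}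
    (hw : ∀ f, 0 < w f) (e : F) [DecidableEq E] :
    (1 + Matrix.diagonal ((fun f : F => ((w f - 1 : ℝ) : ℂ)) + Pi.single e 1) * sec S F).det =
    (1 + Matrix.diagonal (fun f : F => ((w f - 1 : ℝ) : ℂ)) * sec S F).det *
      (1 + (rr S (cut F w) e : ℂ)) := by
  classical
  obtain ⟨C, hC, hLB⟩ := exists_LB_cut F hw
  set v := sol S (cut F w) (e : E) with hv
  have hB := Bw_sol hS hLB hC (e : E)
  rw [← hv, Bw_apply, kv_eq] at hB
  -- the finitely supported vector
  set y : L2 E := delta (e : E) - (mulOp (cut F w) (S v) - S v) with hy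
  have hSy : S y = v := by
    rw [hy, map_sub, map_sub, ← hB]
    abel
  have hyf : ∀ f, (y : E → ℂ) f =
      (if f = (e : E) then 1 else 0) - ((cut F w f : ℂ) - 1) * (S v : E → ℂ) f := by
    intro f
    rw [hy, lp.coeFn_sub, Pi.sub_apply, lp.coeFn_sub, Pi.sub_apply, mulOp_apply hLB.abs_le,
      delta_apply]
    ring
  have hsupp : ∀ f, f ∉ F → (y : E → ℂ) f = 0 := by
    intro f hf
    have hfe : f ≠ (e : E) := fun h => hf (by rw [h]; exact e.2)
    rw [hyf, if_neg hfe, cut, if_neg hf]
    simp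
  have hSv : ∀ f : E, (S v : E → ℂ) f = ∑ g : F, (S (S (delta (g : E))) : E → ℂ) f * (y : E → ℂ) g := by
    intro f
    have := apply_of_support hsupp (S * S) f
    rw [ContinuousLinearMap.mul_apply, hSy] at this
    exact this
  have hmul : (1 + Matrix.diagonal (fun f : F => ((w f - 1 : ℝ) : ℂ)) * sec S F).mulVec
      (fun g : F => (y : E → ℂ) g) = Pi.single e 1 := by
    funext f
    rw [Matrix.add_mulVec, Matrix.one_mulVec, ← Matrix.mulVec_mulVec, Pi.add_apply,
      Matrix.mulVec_diagonal]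
    have h1 : (sec S F).mulVec (fun g : F => (y : E → ℂ) g) f = (S v : E → ℂ) f := by
      rw [hSv]; rfl
    rw [h1, hyf, cut, if_pos f.2, Pi.single_apply]
    by_cases hfe : f = e
    · subst hfe; simp
    · rw [if_neg hfe, if_neg (fun h => hfe (Subtype.ext h))]
      push_cast; ring
  have h2 : (Matrix.diagonal ((fun f : F => ((w f - 1 : ℝ) : ℂ)) + Pi.single e 1) * sec S F) =
      Matrix.diagonal (fun f : F => ((w f - 1 : ℝ) : ℂ)) * sec S F +
        Matrix.vecMulVec (Pi.single e 1) ((sec S F) e) := by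
    ext f g
    rw [Matrix.add_apply, Matrix.diagonal_mul, Matrix.diagonal_mul, Matrix.vecMulVec_apply,
      Pi.add_apply, add_mul]
    congr 1
    by_cases hfe : f = e
    · subst hfe; simp
    · rw [Pi.single_apply, if_neg hfe]; simp
  rw [h2, ← add_assoc, ← hmul, det_update]
  congr 2
  have h3 := sol_apply hS hLB hC (e : E)
  rw [← hv, hSv] at h3
  rw [← h3]
  rfl

end Vale.Agent.P143.H71
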