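import Vale.Agent.P143.H71.Mat2
import Vale.Agent.P143.H536.FlowC

/-!
The tilted marginals of a determinantal probability measure.
-/

namespace Vale.Agent.P143.H71

open Filter Topology MeasureTheory
open scoped InnerProductSpace ComplexConjugate ENNReal NNReal
open H536

variable {E : Type*}

/-- probability that the restriction of the configuration to `F` is `T` -/
noncomputable def qq (μ : Measure (E → Bool)) (F T : Finset E) : ℝ :=
  μ.real {ω | ∀ f ∈ F, (ω f = true ↔ f ∈ T)}

theorem qq_nonneg (μ : Measure (E → Bool)) (F T : Finset E) : 0 ≤ qq μ F T :=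
  measureReal_nonneg

theorem sum_qq [DecidableEq E] (μ : Measure (E → Bool)) [IsProbabilityMeasure μ] (F R : Finset E)
    (hR : R ⊆ F) :
    ∑ T ∈ F.powerset with R ⊆ T, qq μ F T = μ.real {ω | ∀ e ∈ R, ω e = true} := by
  unfold qq
  rw [← measureReal_biUnion_finset (s := F.powerset.filter (R ⊆ ·))
    (f := fun T => {ω : E → Bool | ∀ f ∈ F, (ω f = true ↔ f ∈ T)})]
  · congr 1
    ext ω
    simp only [Finset.mem_filter, Finset.mem_powerset, Set.mem_iUnion, exists_prop,
      Set.mem_ofPred_eq]
    constructor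
    · rintro ⟨T, ⟨_, hRT⟩, h⟩ e he
      exact (h e (hR he)).2 (hRT he)
    · intro h
      refine ⟨F.filter fun e => ω e = true, ⟨Finset.filter_subset _ _, fun e he => ?_⟩, ?_⟩
      · exact Finset.mem_filter.2 ⟨hR he, h e he⟩
      · intro f hf
        simp [hf]
  · intro T hT T' hT' hne
    simp only [Finset.coe_filter, Finset.mem_powerset, Set.mem_ofPred_eq] at hT hT'
    rw [Function.onFun, Set.disjoint_left]
    intro ω h1 h2
    apply hne
    ext f
    constructor
    · intro hf
      exact (h2 f (hT.1 hf)).1 ((h1 f (hT.1 hf)).2 hf)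
    · intro hf
      exact (h1 f (hT'.1 hf)).1 ((h2 f (hT'.1 hf)).2 hf)
  · intro T _
    exact measurableSet_cyl' F T

theorem sum_qq_univ [DecidableEq E] (μ : Measure (E → Bool)) [IsProbabilityMeasure μ]
    (F : Finset E) : ∑ T ∈ F.powerset, qq μ F T = 1 := by
  have := sum_qq μ F ∅ (Finset.empty_subset _)
  simpa using this

theorem prior_qq (μ : Measure (E → Bool)) [IsProbabilityMeasure μ] (F : Finset E) :
    Prior F.powerset (qq μ F) := by
  classical
  exact ⟨fun T _ => qq_nonneg μ F T, by rw [sum_qq_univ]; exact one_pos⟩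

/-- generating polynomial -/
theorem gen_qq [DecidableEq E] (μ : Measure (E → Bool)) [IsProbabilityMeasure μ] (F : Finset E)
    (u : E → ℝ) :
    ∑ T ∈ F.powerset, qq μ F T * ∏ j ∈ T, (1 + u j) =
      ∑ R ∈ F.powerset, (∏ j ∈ R, u j) * μ.real {ω | ∀ e ∈ R, ω e = true} := by
  have h1 : ∀ T ∈ F.powerset, qq μ F T * ∏ j ∈ T, (1 + u j) =
      ∑ R ∈ F.powerset, if R ⊆ T then (∏ j ∈ R, u j) * qq μ F T else 0 := by
    intro T hT
    rw [Finset.prod_one_add, Finset.mul_sum, ← Finset.sum_filter]
    have h2 : F.powerset.filter (fun R => R ⊆ T) = T.powerset := by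
      ext R
      simp only [Finset.mem_filter, Finset.mem_powerset]
      exact ⟨fun h => h.2, fun h => ⟨h.trans (Finset.mem_powerset.1 hT), h⟩⟩
    rw [h2]
    exact Finset.sum_congr rfl fun R _ => mul_comm _ _
  rw [Finset.sum_congr rfl h1, Finset.sum_comm]
  refine Finset.sum_congr rfl fun R hR => ?_
  rw [← sum_qq μ F R (Finset.mem_powerset.1 hR), Finset.sum_filter, Finset.mul_sum]
  refine Finset.sum_congr rfl fun T _ => ?_
  split_ifs <;> simp

/-- the correlation functions of `μ` are the principal minors of `S²` -/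
def Corr (S : L2 E →L[ℂ] L2 E) (μ : Measure (E → Bool)) : Prop :=
  ∀ T : Finset E, ((μ.real {ω | ∀ e ∈ T, ω e = true} : ℝ) : ℂ) = (by classical exact (sec S T).det)

theorem gen_det [DecidableEq E] {S : L2 E →L[ℂ] L2 E} {μ : Measure (E → Bool)}
    [IsProbabilityMeasure μ] (hμ : Corr S μ) (F : Finset E) (u : E → ℝ) :
    ((∑ T ∈ F.powerset, qq μ F T * ∏ j ∈ T, (1 + u j) : ℝ) : ℂ) =
      (1 + Matrix.diagonal (fun f : F => ((u f : ℝ) : ℂ)) * sec S F).det := by
  rw [gen_qq, det_one_add_diagonal_mul]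
  push_cast
  refine Finset.sum_nbij' (fun R => R.subtype (· ∈ F))
    (fun s => s.map (Function.Embedding.subtype _)) ?_ ?_ ?_ ?_ ?_
  · intro R _; exact Finset.mem_univ _
  · intro s _
    rw [Finset.mem_powerset]
    intro f hf
    obtain ⟨g, _, rfl⟩ := Finset.mem_map.1 hf
    exact g.2
  · intro R hR
    rw [Finset.mem_powerset] at hR
    rw [Finset.subtype_map_of_mem]
    exact fun x hx => hR hx
  · intro s _
    ext x
    simp
  · intro R hR
    rw [Finset.mem_powerset] at hR
    congr 1
    · rw [Finset.prod_subtype_of_mem (f := fun j => ((u j : ℝ) : ℂ)) (p := (· ∈ F))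
        (fun x hx => hR hx)]
    · rw [hμ R]
      let e : (R.subtype (· ∈ F) : Finset F) ≃ R :=
        { toFun := fun x => ⟨x.1.1, Finset.mem_subtype.1 x.2⟩
          invFun := fun x => ⟨⟨x.1, hR x.2⟩, Finset.mem_subtype.2 x.2⟩
          left_inv := fun x => rfl
          right_inv := fun x => rfl }
      have h := Matrix.det_submatrix_equiv_self e (sec S R)
      have h' : ((sec S F).submatrix (Subtype.val : (R.subtype (· ∈ F) : Finset F) → F)
          Subtype.val).det = ((sec S R).submatrix e e).det := rfl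
      rw [h', h]
      congr 1

/-- the tilted marginals in finite volume -/
theorem upr_link [DecidableEq E] {S : L2 E →L[ℂ] L2 E} (hS : IsRoot S) {μ : Measure (E → Bool)}
    [IsProbabilityMeasure μ] (hμ : Corr S μ) (F : Finset E) {w : E → ℝ} (hw : ∀ f, 0 < w f)
    {e : E} (he : e ∈ F) :
    upr F.powerset (qq μ F) w e = w e * rr S (cut F w) e := by
  set Z : (E → ℝ) → ℝ := fun w => ∑ T ∈ F.powerset, qq μ F T * ∏ j ∈ T, w j with hZ
  have hZ1 : ∀ v : E → ℝ, ((Z v : ℝ) : ℂ) =
      (1 + Matrix.diagonal (fun f : F => ((v f - 1 : ℝ) : ℂ)) * sec S F).det := by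
    intro v
    rw [← gen_det hμ F (fun f => v f - 1)]
    simp only [hZ, add_sub_cancel]
  have hZ2 : Z (Function.update w e (w e + 1)) = Z w * (1 + rr S (cut F w) e) := by
    have h1 := det_link hS F hw ⟨e, he⟩
    have h2 : ((fun f : F => ((w f - 1 : ℝ) : ℂ)) + Pi.single ⟨e, he⟩ 1) =
        fun f : F => ((Function.update w e (w e + 1) f - 1 : ℝ) : ℂ) := by
      funext f
      rw [Pi.add_apply, Pi.single_apply, Function.update_apply]
      by_cases hf : f = ⟨e, he⟩
      · rw [if_pos hf, hf]; simp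
      · have : (f : E) ≠ e := fun h => hf (Subtype.ext h)
        rw [if_neg hf, if_neg this]; simp
    rw [h2, ← hZ1, ← hZ1] at h1
    exact_mod_cast h1
  have hZ3 : Z (Function.update w e (w e + 1)) - Z w =
      ∑ T ∈ F.powerset with e ∈ T, qq μ F T * ∏ j ∈ T.erase e, w j := by
    simp only [hZ]
    rw [← Finset.sum_sub_distrib, Finset.sum_filter]
    refine Finset.sum_congr rfl fun T _ => ?_
    by_cases heT : e ∈ T
    · rw [if_pos heT, Finset.prod_update_of_mem heT, ← Finset.erase_eq,
        ← Finset.mul_prod_erase T w heT]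
      ring
    · rw [if_neg heT, Finset.prod_update_of_notMem heT, sub_self]
  have hpos : 0 < Z w := sum_qprod_pos (prior_qq μ F) hw
  have hnum : ∑ T ∈ F.powerset with e ∈ T, qq μ F T * ∏ j ∈ T, w j =
      w e * (Z w * rr S (cut F w) e) := by
    have h3 : Z w * rr S (cut F w) e =
        ∑ T ∈ F.powerset with e ∈ T, qq μ F T * ∏ j ∈ T.erase e, w j := by
      rw [← hZ3, hZ2]; ring
    rw [h3, Finset.mul_sum]
    refine Finset.sum_congr rfl fun T hT => ?_
    rw [← Finset.mul_prod_erase T w (Finset.mem_filter.1 hT).2]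
    ring
  unfold upr
  rw [hnum]
  change w e * (Z w * rr S (cut F w) e) / Z w = _
  field_simp

theorem upr_of_not_mem [DecidableEq E] (μ : Measure (E → Bool)) (F : Finset E) (w : E → ℝ)
    {e : E} (he : e ∉ F) : upr F.powerset (qq μ F) w e = 0 := by
  unfold upr
  rw [Finset.filter_false_of_mem, Finset.sum_empty, zero_div]
  intro T hT heT
  exact he (Finset.mem_powerset.1 hT heT)

/-- in finite volume the tilted marginals form a drift -/
theorem isDrift_upr [DecidableEq E] {S : L2 E →L[ℂ] L2 E} (hS : IsRoot S)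
    {μ : Measure (E → Bool)} [IsProbabilityMeasure μ] (hμ : Corr S μ) (F : Finset E) :
    IsDrift (upr F.powerset (qq μ F)) := by
  refine isDrift_of_mul (fun w hw e => upr_nonneg (prior_qq μ F) hw e)
    (fun w hw e => upr_le_one (prior_qq μ F) hw e) ?_
  intro w w' hw hw' δ hδ e
  by_cases he : e ∈ F
  swap
  · rw [upr_of_not_mem μ F w he, upr_of_not_mem μ F w' he, mul_zero]
  rw [upr_link hS hμ F hw he, upr_link hS hμ F hw' he]
  have hδ0 : 0 ≤ δ := (abs_nonneg _).trans (hδ e)
  obtain ⟨C, hC, h1⟩ := exists_LB_cut F hw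
  obtain ⟨C', hC', h2⟩ := exists_LB_cut F hw'
  have h1' := h1.mono (le_max_left C C')
  have h2' := h2.mono (le_max_right C C')
  have hle : ∀ f, w f ≤ Real.exp δ * w' f := by
    intro f
    have := (abs_le.1 (hδ f)).2
    rw [← Real.log_le_log_iff (hw f) (mul_pos (Real.exp_pos _) (hw' f)),
      Real.log_mul (Real.exp_pos _).ne' (hw' f).ne', Real.log_exp]
    linarith
  have hle' : ∀ f, w' f ≤ Real.exp δ * w f := by
    intro f
    have := (abs_le.1 (hδ f)).1
    rw [← Real.log_le_log_iff (hw' f) (mul_pos (Real.exp_pos _) (hw f)),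
      Real.log_mul (Real.exp_pos _).ne' (hw f).ne', Real.log_exp]
    linarith
  have h3 := rr_mono hS h1' h2' (hC.trans (le_max_left _ _)) (t := Real.exp (-δ))
    (Real.exp_pos _) (Real.exp_le_one_iff.2 (by linarith)) (fun f => by
      unfold cut
      split_ifs with hf
      · have := mul_le_mul_of_nonneg_left (hle f) (Real.exp_pos (-δ)).le
        rwa [← mul_assoc, ← Real.exp_add, neg_add_cancel, Real.exp_zero, one_mul] at this
      · rw [mul_one]; exact Real.exp_le_one_iff.2 (by linarith)) e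
  have h4 : rr S (cut F w') e ≤ Real.exp δ * rr S (cut F w) e := by
    have := mul_le_mul_of_nonneg_left h3 (Real.exp_pos δ).le
    rwa [← mul_assoc, ← Real.exp_add, add_neg_cancel, Real.exp_zero, one_mul] at this
  have h5 : 0 ≤ rr S (cut F w') e := rr_nonneg hS h2 hC' e
  calc w' e * rr S (cut F w') e ≤ (Real.exp δ * w e) * (Real.exp δ * rr S (cut F w) e) :=
        mul_le_mul (hle' e) h4 h5 (mul_pos (Real.exp_pos _) (hw e)).le
    _ = Real.exp (2 * δ) * (w e * rr S (cut F w) e) := by
        rw [two_mul, Real.exp_add]; ring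

end Vale.Agent.P143.H71
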