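import Vale.Agent.P143.Bdl.B1
import Mathlib.Analysis.InnerProductSpace.l2Space
import Mathlib.Analysis.InnerProductSpace.Positive
import Mathlib.Analysis.InnerProductSpace.StarOrder
import Mathlib.Analysis.Normed.Lp.lpHolder
import Mathlib.Analysis.SpecialFunctions.ContinuousFunctionalCalculus.Rpow.Basic
import Mathlib.Analysis.Normed.Group.Tannery

/-!
Operator part: the reweighted kernel of a positive contraction on `ℓ²(E)`.
-/

namespace Vale.Agent.P143.H71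

open Filter Topology
open scoped InnerProductSpace ComplexConjugate ENNReal NNReal

/-- the Hilbert space `ℓ²(E)` -/
noncomputable abbrev L2 (E : Type*) := lp (fun _ : E => ℂ) 2

variable {E : Type*}

/-- log-bounded weights -/
def LB (C : ℝ) (w : E → ℝ) : Prop := ∀ e, 0 < w e ∧ |Real.log (w e)| ≤ C

theorem LB.pos {C : ℝ} {w : E → ℝ} (h : LB C w) (e : E) : 0 < w e := (h e).1

theorem LB.le_exp {C : ℝ} {w : E → ℝ} (h : LB C w) (e : E) : w e ≤ Real.exp C := by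
  rw [← Real.log_le_iff_le_exp (h e).1]
  exact (le_abs_self _).trans (h e).2

theorem LB.exp_le {C : ℝ} {w : E → ℝ} (h : LB C w) (e : E) : Real.exp (-C) ≤ w e := by
  rw [← Real.le_log_iff_exp_le (h e).1]
  have := (abs_le.1 (h e).2).1
  linarith

theorem LB.abs_le {C : ℝ} {w : E → ℝ} (h : LB C w) (e : E) : |w e| ≤ Real.exp C := by
  rw [abs_of_pos (h.pos e)]; exact h.le_exp e

theorem LB.mono {C D : ℝ} {w : E → ℝ} (h : LB C w) (hCD : C ≤ D) : LB D w :=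
  fun e => ⟨(h e).1, (h e).2.trans hCD⟩

open Classical in
/-- multiplication by a bounded real function (zero if the function is unbounded) -/
noncomputable def mulOp (u : E → ℝ) : L2 E →L[ℂ] L2 E :=
  if h : ∃ C : ℝ, 0 ≤ C ∧ ∀ e, |u e| ≤ C then
    lp.mapCLM 2 (fun e => (u e : ℂ) • ContinuousLinearMap.id ℂ ℂ) h.choose_spec.1
      (fun e => by
        rw [norm_smul, Complex.norm_real, Real.norm_eq_abs, ContinuousLinearMap.norm_id, mul_one]
        exact h.choose_spec.2 e)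
  else 0

theorem mulOp_apply {u : E → ℝ} {C : ℝ} (hu : ∀ e, |u e| ≤ C) (x : L2 E) (e : E) :
    (mulOp u x : E → ℂ) e = (u e : ℂ) * x e := by
  have h : ∃ C : ℝ, 0 ≤ C ∧ ∀ e, |u e| ≤ C := ⟨C, (abs_nonneg _).trans (hu e), hu⟩
  unfold mulOp
  rw [dif_pos h]
  simp [lp.mapCLM]

theorem inner_mulOp {u : E → ℝ} {C : ℝ} (hu : ∀ e, |u e| ≤ C) (x y : L2 E) :
    ⟪mulOp u x, y⟫_ℂ = ∑' e, (u e : ℂ) * ⟪x e, y e⟫_ℂ := by
  rw [lp.inner_eq_tsum]
  refine tsum_congr fun e => ?_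
  rw [mulOp_apply hu]
  simp [mul_comm, mul_left_comm, mul_assoc]

theorem mulOp_symm {u : E → ℝ} {C : ℝ} (hu : ∀ e, |u e| ≤ C) (x y : L2 E) :
    ⟪mulOp u x, y⟫_ℂ = ⟪x, mulOp u y⟫_ℂ := by
  rw [inner_mulOp hu, lp.inner_eq_tsum]
  refine tsum_congr fun e => ?_
  rw [mulOp_apply hu]
  simp [mul_comm, mul_left_comm, mul_assoc]

theorem hasSum_re_inner_mulOp {u : E → ℝ} {C : ℝ} (hu : ∀ e, |u e| ≤ C) (x : L2 E) :
    HasSum (fun e => u e * ‖x e‖ ^ 2) (RCLike.re ⟪mulOp u x, x⟫_ℂ) := by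
  have h := (lp.hasSum_inner (𝕜 := ℂ) (mulOp u x) x).mapL (RCLike.reCLM (K := ℂ))
  have hfun : (fun e => u e * ‖x e‖ ^ 2) =
      fun e => (RCLike.reCLM (K := ℂ)) ⟪(mulOp u x : E → ℂ) e, x e⟫_ℂ := ?_
  · rw [hfun]; exact h
  funext e
  have : ⟪x e, x e⟫_ℂ = ((‖x e‖ ^ 2 : ℝ) : ℂ) := by
    rw [inner_self_eq_norm_sq_to_K]; push_cast; rfl
  rw [mulOp_apply hu]
  have h2 : ⟪(u e : ℂ) * x e, x e⟫_ℂ = (u e : ℂ) * ⟪x e, x e⟫_ℂ := by
    rw [← smul_eq_mul, inner_smul_left, Complex.conj_ofReal]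
  rw [h2, this]
  simp [← Complex.ofReal_mul, ← Complex.ofReal_pow]

theorem re_inner_mulOp_mono {u u' : E → ℝ} {C C' : ℝ} (hu : ∀ e, |u e| ≤ C)
    (hu' : ∀ e, |u' e| ≤ C') (h : ∀ e, u e ≤ u' e) (x : L2 E) :
    RCLike.re ⟪mulOp u x, x⟫_ℂ ≤ RCLike.re ⟪mulOp u' x, x⟫_ℂ :=
  hasSum_le (fun e => mul_le_mul_of_nonneg_right (h e) (sq_nonneg _))
    (hasSum_re_inner_mulOp hu x) (hasSum_re_inner_mulOp hu' x)

theorem hasSum_norm_sq (x : L2 E) : HasSum (fun e => ‖x e‖ ^ 2) (‖x‖ ^ 2) := by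
  have := lp.hasSum_norm (p := 2) (by norm_num) x
  simpa using this

theorem le_re_inner_mulOp {u : E → ℝ} {C c : ℝ} (hu : ∀ e, |u e| ≤ C)
    (h : ∀ e, c ≤ u e) (x : L2 E) : c * ‖x‖ ^ 2 ≤ RCLike.re ⟪mulOp u x, x⟫_ℂ :=
  hasSum_le (fun e => mul_le_mul_of_nonneg_right (h e) (sq_nonneg _))
    ((hasSum_norm_sq x).mul_left c) (hasSum_re_inner_mulOp hu x)

theorem re_inner_mulOp_le {u : E → ℝ} {C c : ℝ} (hu : ∀ e, |u e| ≤ C)
    (h : ∀ e, u e ≤ c) (x : L2 E) : RCLike.re ⟪mulOp u x, x⟫_ℂ ≤ c * ‖x‖ ^ 2 :=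
  hasSum_le (fun e => mul_le_mul_of_nonneg_right (h e) (sq_nonneg _))
    (hasSum_re_inner_mulOp hu x) ((hasSum_norm_sq x).mul_left c)

/-- square root of a positive contraction -/
structure IsRoot (S : L2 E →L[ℂ] L2 E) : Prop where
  symm : ∀ x y, ⟪S x, y⟫_ℂ = ⟪x, S y⟫_ℂ
  le : ∀ x, ‖S x‖ ≤ ‖x‖

/-- the form operator `1 - S² + S W S` -/
noncomputable def Bw (S : L2 E →L[ℂ] L2 E) (w : E → ℝ) : L2 E →L[ℂ] L2 E :=
  1 - S * S + S * mulOp w * S

theorem Bw_apply (S : L2 E →L[ℂ] L2 E) (w : E → ℝ) (x : L2 E) :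
    Bw S w x = x - S (S x) + S (mulOp w (S x)) := rfl

section

variable {S : L2 E →L[ℂ] L2 E} (hS : IsRoot S) {w : E → ℝ} {C : ℝ} (hw : LB C w)

include hS hw

theorem Bw_symm (x y : L2 E) : ⟪Bw S w x, y⟫_ℂ = ⟪x, Bw S w y⟫_ℂ := by
  rw [Bw_apply, Bw_apply, inner_add_left, inner_sub_left, inner_add_right, inner_sub_right,
    hS.symm (S x), hS.symm x, hS.symm (mulOp w (S x)), mulOp_symm hw.abs_le, ← hS.symm x (S y),
    ← hS.symm x (mulOp w (S y))]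

theorem re_Bw (x : L2 E) : RCLike.re ⟪Bw S w x, x⟫_ℂ =
    ‖x‖ ^ 2 - ‖S x‖ ^ 2 + RCLike.re ⟪mulOp w (S x), S x⟫_ℂ := by
  rw [Bw_apply, inner_add_left, inner_sub_left, hS.symm (S x), hS.symm (mulOp w (S x)),
    map_add, map_sub, inner_self_eq_norm_sq, inner_self_eq_norm_sq]

theorem re_Bw_ge (hC : 0 ≤ C) (x : L2 E) :
    Real.exp (-C) * ‖x‖ ^ 2 ≤ RCLike.re ⟪Bw S w x, x⟫_ℂ := by
  rw [re_Bw hS hw]
  have h1 := le_re_inner_mulOp hw.abs_le hw.exp_le (S x)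
  have h2 : ‖S x‖ ^ 2 ≤ ‖x‖ ^ 2 := pow_le_pow_left₀ (norm_nonneg _) (hS.le x) 2
  have h3 : Real.exp (-C) ≤ 1 := Real.exp_le_one_iff.2 (by linarith)
  nlinarith

theorem norm_Bw_ge (hC : 0 ≤ C) (x : L2 E) : Real.exp (-C) * ‖x‖ ≤ ‖Bw S w x‖ := by
  rcases (norm_nonneg x).eq_or_lt with h | h
  · rw [← h, mul_zero]; exact norm_nonneg _
  · have h1 := re_Bw_ge hS hw hC x
    have h2 : RCLike.re ⟪Bw S w x, x⟫_ℂ ≤ ‖Bw S w x‖ * ‖x‖ :=
      (RCLike.re_le_norm _).trans (norm_inner_le_norm _ _)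
    have h3 : Real.exp (-C) * ‖x‖ * ‖x‖ ≤ ‖Bw S w x‖ * ‖x‖ := by nlinarith
    exact le_of_mul_le_mul_right h3 h

theorem isUnit_Bw (hC : 0 ≤ C) : IsUnit (Bw S w) := by
  refine ContinuousLinearMap.isUnit_of_forall_le_norm_inner_map (Bw S w)
    (c := ⟨Real.exp (-C), (Real.exp_pos _).le⟩) (Real.exp_pos _) fun x => ?_
  have h1 := re_Bw_ge hS hw hC x
  have h2 := RCLike.re_le_norm ⟪Bw S w x, x⟫_ℂ
  change ‖x‖ ^ 2 * Real.exp (-C) ≤ _
  linarith

end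

open Classical in
/-- `S δ_e` -/
noncomputable def kv (S : L2 E →L[ℂ] L2 E) (e : E) : L2 E := S (lp.single 2 e 1)

/-- `B_w⁻¹ S δ_e` -/
noncomputable def sol (S : L2 E →L[ℂ] L2 E) (w : E → ℝ) (e : E) : L2 E :=
  Ring.inverse (Bw S w) (kv S e)

/-- `⟨S δ_e, B_w⁻¹ S δ_e⟩` -/
noncomputable def rr (S : L2 E →L[ℂ] L2 E) (w : E → ℝ) (e : E) : ℝ :=
  RCLike.re ⟪kv S e, sol S w e⟫_ℂ

section

variable {S : L2 E →L[ℂ] L2 E} (hS : IsRoot S) {w : E → ℝ} {C : ℝ} (hw : LB C w) (hC : 0 ≤ C)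

include hS hw hC

theorem Bw_sol (e : E) : Bw S w (sol S w e) = kv S e := by
  have := Ring.mul_inverse_cancel _ (isUnit_Bw hS hw hC)
  have h2 := congrArg (fun T : L2 E →L[ℂ] L2 E => T (kv S e)) this
  exact h2

theorem inner_kv_sol (e : E) : ⟪kv S e, sol S w e⟫_ℂ = (rr S w e : ℂ) := by
  have h1 : ⟪kv S e, sol S w e⟫_ℂ = ⟪sol S w e, kv S e⟫_ℂ := by
    rw [← Bw_sol hS hw hC e, Bw_symm hS hw]
  have h2 : conj ⟪kv S e, sol S w e⟫_ℂ = ⟪kv S e, sol S w e⟫_ℂ := by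
    rw [inner_conj_symm, h1]
  have h3 := Complex.conj_eq_iff_re.1 h2
  rw [← h3]
  rfl

theorem rr_eq (e : E) : rr S w e = RCLike.re ⟪Bw S w (sol S w e), sol S w e⟫_ℂ := by
  rw [Bw_sol hS hw hC e]; rfl

theorem rr_nonneg (e : E) : 0 ≤ rr S w e := by
  rw [rr_eq hS hw hC]
  exact (mul_nonneg (Real.exp_pos _).le (sq_nonneg _)).trans (re_Bw_ge hS hw hC _)

/-- variational bound -/
theorem le_rr (e : E) (x : L2 E) :
    2 * RCLike.re ⟪kv S e, x⟫_ℂ - RCLike.re ⟪Bw S w x, x⟫_ℂ ≤ rr S w e := by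
  have h1 : 0 ≤ RCLike.re ⟪Bw S w (x - sol S w e), x - sol S w e⟫_ℂ :=
    (mul_nonneg (Real.exp_pos _).le (sq_nonneg _)).trans (re_Bw_ge hS hw hC _)
  rw [map_sub, inner_sub_left, inner_sub_right, inner_sub_right, Bw_sol hS hw hC e,
    Bw_symm hS hw x (sol S w e), Bw_sol hS hw hC e, map_sub, map_sub, map_sub] at h1
  have h2 : RCLike.re ⟪x, kv S e⟫_ℂ = RCLike.re ⟪kv S e, x⟫_ℂ := inner_re_symm _ _
  have h3 : rr S w e = RCLike.re ⟪kv S e, sol S w e⟫_ℂ := rfl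
  linarith

theorem sol_apply (e : E) : (S (sol S w e) : E → ℂ) e = (rr S w e : ℂ) := by
  classical
  rw [← inner_kv_sol hS hw hC, kv, hS.symm, lp.inner_single_left]
  simp

end

/-- comparison of the resistances for comparable weights -/
theorem rr_mono {S : L2 E →L[ℂ] L2 E} (hS : IsRoot S) {w w' : E → ℝ} {C : ℝ} (hw : LB C w)
    (hw' : LB C w') (hC : 0 ≤ C) {t : ℝ} (ht : 0 < t) (ht1 : t ≤ 1) (h : ∀ f, t * w f ≤ w' f)
    (e : E) : t * rr S w' e ≤ rr S w e := by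
  set v := sol S w' e with hv
  have h1 := le_rr hS hw hC e ((t : ℂ) • v)
  have h2 : RCLike.re ⟪kv S e, (t : ℂ) • v⟫_ℂ = t * rr S w' e := by
    rw [inner_smul_right, inner_kv_sol hS hw' hC]
    simp
  have h3 : RCLike.re ⟪Bw S w ((t : ℂ) • v), (t : ℂ) • v⟫_ℂ =
      t ^ 2 * RCLike.re ⟪Bw S w v, v⟫_ℂ := by
    rw [map_smul, inner_smul_left, inner_smul_right]
    simp
    ring
  have h4 : t * RCLike.re ⟪Bw S w v, v⟫_ℂ ≤ RCLike.re ⟪Bw S w' v, v⟫_ℂ := by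
    rw [re_Bw hS hw, re_Bw hS hw']
    have h5 : RCLike.re ⟪mulOp (fun f => t * w f) (S v), S v⟫_ℂ ≤
        RCLike.re ⟪mulOp w' (S v), S v⟫_ℂ :=
      re_inner_mulOp_mono (C := Real.exp C) (fun f => by
        rw [abs_of_pos (mul_pos ht (hw.pos f))]
        calc t * w f ≤ 1 * Real.exp C := mul_le_mul ht1 (hw.le_exp f) (hw.pos f).le zero_le_one
          _ = Real.exp C := one_mul _) hw'.abs_le h (S v)
    have h6 : RCLike.re ⟪mulOp (fun f => t * w f) (S v), S v⟫_ℂ =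
        t * RCLike.re ⟪mulOp w (S v), S v⟫_ℂ := by
      refine (hasSum_re_inner_mulOp (C := Real.exp C) (fun f => ?_) (S v)).unique ?_
      · rw [abs_of_pos (mul_pos ht (hw.pos f))]
        calc t * w f ≤ 1 * Real.exp C := mul_le_mul ht1 (hw.le_exp f) (hw.pos f).le zero_le_one
          _ = Real.exp C := one_mul _
      · have h7 := (hasSum_re_inner_mulOp hw.abs_le (S v)).mul_left t
        have hfun : (fun f => t * w f * ‖(S v : E → ℂ) f‖ ^ 2) =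
          fun f => t * (w f * ‖(S v : E → ℂ) f‖ ^ 2) := funext fun f => by ring
        rw [hfun]; exact h7
    have h7 : ‖S v‖ ^ 2 ≤ ‖v‖ ^ 2 := pow_le_pow_left₀ (norm_nonneg _) (hS.le v) 2
    nlinarith
  have h5 : rr S w' e = RCLike.re ⟪Bw S w' v, v⟫_ℂ := rr_eq hS hw' hC e
  rw [h2, h3] at h1
  rw [← h5] at h4
  nlinarith

/-- continuity for pointwise convergence of log-bounded weights -/
theorem tendsto_rr {α : Type*} {𝓕 : Filter α} {S : L2 E →L[ℂ] L2 E} (hS : IsRoot S)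
    {w : E → ℝ} {wn : α → E → ℝ} {C : ℝ} (hC : 0 ≤ C) (hw : LB C w)
    (hwn : ∀ n, LB C (wn n)) (h : ∀ f, Tendsto (fun n => wn n f) 𝓕 (𝓝 (w f))) (e : E) :
    Tendsto (fun n => rr S (wn n) e) 𝓕 (𝓝 (rr S w e)) := by
  set v := sol S w e with hv
  -- the perturbation tends to zero
  have hbd : ∀ n f, |wn n f - w f| ≤ 2 * Real.exp C := fun n f => by
    have h1 := (hwn n).pos f
    have h2 := (hwn n).le_exp f
    have h3 := hw.pos f
    have h4 := hw.le_exp f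
    rw [abs_le]; constructor <;> linarith
  have hsub : ∀ n, mulOp (wn n) (S v) - mulOp w (S v) = mulOp (fun f => wn n f - w f) (S v) := by
    intro n
    ext f
    rw [lp.coeFn_sub, Pi.sub_apply, mulOp_apply (hwn n).abs_le, mulOp_apply hw.abs_le,
      mulOp_apply (hbd n)]
    push_cast
    ring
  have hn2 : ∀ n, ‖mulOp (fun f => wn n f - w f) (S v)‖ ^ 2 =
      ∑' f, (wn n f - w f) ^ 2 * ‖(S v : E → ℂ) f‖ ^ 2 := by
    intro n
    rw [← (hasSum_norm_sq _).tsum_eq]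
    refine tsum_congr fun f => ?_
    rw [mulOp_apply (hbd n), norm_mul, mul_pow, Complex.norm_real, Real.norm_eq_abs, sq_abs]
  have ht : Tendsto (fun n => ‖mulOp (fun f => wn n f - w f) (S v)‖ ^ 2) 𝓕 (𝓝 0) := by
    simp only [hn2]
    have h0 : (0 : ℝ) = ∑' f : E, (0 : ℝ) := by simp
    rw [h0]
    refine tendsto_tsum_of_dominated_convergence
      (bound := fun f => (2 * Real.exp C) ^ 2 * ‖(S v : E → ℂ) f‖ ^ 2)
      ((hasSum_norm_sq (S v)).summable.mul_left _) (fun f => ?_) (Eventually.of_forall fun n f => ?_)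
    · have h1 : Tendsto (fun n => (wn n f - w f) ^ 2 * ‖(S v : E → ℂ) f‖ ^ 2) 𝓕
          (𝓝 ((w f - w f) ^ 2 * ‖(S v : E → ℂ) f‖ ^ 2)) :=
        (((h f).sub_const _).pow 2).mul_const _
      simpa using h1
    · rw [Real.norm_eq_abs, abs_mul, abs_of_nonneg (sq_nonneg ‖(S v : E → ℂ) f‖), abs_pow]
      exact mul_le_mul_of_nonneg_right (pow_le_pow_left₀ (abs_nonneg _) (hbd n f) 2) (sq_nonneg _)
  have ht' : Tendsto (fun n => ‖mulOp (fun f => wn n f - w f) (S v)‖) 𝓕 (𝓝 0) := by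
    have := (Real.continuous_sqrt.tendsto 0).comp ht
    simpa [Function.comp_def, Real.sqrt_sq (norm_nonneg _)] using this
  -- comparison
  have hcomp : ∀ n, |rr S (wn n) e - rr S w e| ≤
      Real.exp C * ‖mulOp (fun f => wn n f - w f) (S v)‖ * ‖kv S e‖ := by
    intro n
    have h1 : rr S (wn n) e - rr S w e = RCLike.re ⟪kv S e, sol S (wn n) e - v⟫_ℂ := by
      rw [inner_sub_right, map_sub]; rfl
    have h2 : |RCLike.re ⟪kv S e, sol S (wn n) e - v⟫_ℂ| ≤ ‖kv S e‖ * ‖sol S (wn n) e - v‖ :=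
      (RCLike.abs_re_le_norm _).trans (norm_inner_le_norm _ _)
    have h3 := norm_Bw_ge hS (hwn n) hC (sol S (wn n) e - v)
    have h4 : Bw S (wn n) (sol S (wn n) e - v) = -S (mulOp (fun f => wn n f - w f) (S v)) := by
      rw [map_sub, Bw_sol hS (hwn n) hC e, ← Bw_sol hS hw hC e, ← hv, Bw_apply, Bw_apply,
        ← hsub n, map_sub]
      abel
    rw [h4, norm_neg] at h3
    have h5 := hS.le (mulOp (fun f => wn n f - w f) (S v))
    have h6 : ‖sol S (wn n) e - v‖ ≤ Real.exp C * ‖mulOp (fun f => wn n f - w f) (S v)‖ := by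
      have h7 : Real.exp C * (Real.exp (-C) * ‖sol S (wn n) e - v‖) = ‖sol S (wn n) e - v‖ := by
        rw [← mul_assoc, ← Real.exp_add]; simp
      rw [← h7]
      exact mul_le_mul_of_nonneg_left (h3.trans h5) (Real.exp_pos _).le
    rw [h1]
    refine h2.trans ?_
    rw [mul_comm]
    exact mul_le_mul_of_nonneg_right h6 (norm_nonneg _)
  rw [tendsto_iff_norm_sub_tendsto_zero]
  have h0 := (ht'.const_mul (Real.exp C)).mul_const ‖kv S e‖
  rw [mul_zero, zero_mul] at h0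
  exact squeeze_zero (fun n => norm_nonneg _) (fun n => hcomp n) h0

end Vale.Agent.P143.H71
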