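import Vale.Agent.P143.H71.Loc
import Vale.Agent.P143.H726.Defs

/-!
The universal rule and the group version from the operator form of the kernel.
-/

namespace Vale.Agent.P143.H71

open Filter Topology MeasureTheory unitInterval
open H536

/-- bridge between infinite matrices and operators -/
def Bridge : Prop :=
  ∀ (X : Type) [Countable X] [DecidableEq X] (μ : Measure (X → Bool)),
    Det.IsDeterminantal μ → IsDeterminantal μ

theorem universal_of (hb : Bridge) : Det.Universal :=
  ⟨rul, ⟨measurable_rul, fun τ μ U x => rul_tr τ μ U x⟩, fun μ hμ => rul_law (hb ℕ μ hμ)⟩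

theorem groups_of (hb : Bridge) : Det.Groups := by
  intro Γ X _ _ _ _ _ hst μ hμ hinv
  exact (good_dft (hb X μ hμ)).isFactor (Γ := Γ) (fun e => Set.toFinite _)
    (fun γ w _ x => dft_smul hinv γ w x)

end Vale.Agent.P143.H71
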